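import Vale.Agent.P160R.Code.Options

/-!
# The size of the code
-/

namespace Vale.Agent.P160R

open Finset Matrix Filter
open scoped Classical Topology

variable {ι : Type} [Fintype ι] [DecidableEq ι]

/-- Choices on few places times choices on the others. -/
theorem sum_powerset_small_le {α : Type*} [DecidableEq α] (P : Finset α) (a b : α → ℝ)
    (ha : ∀ p, 0 ≤ a p) (hb : ∀ p, 0 ≤ b p) (η : ℝ) (hη : 0 < η) (hη1 : η ≤ 1) (k : ℕ) :
    ∑ T ∈ P.powerset.filter (fun T => T.card ≤ k), (∏ p ∈ T, a p) * ∏ p ∈ P \ T, b p ≤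
      (η⁻¹) ^ k * ∏ p ∈ P, (η * a p + b p) := by
  rw [Finset.prod_add, Finset.mul_sum]
  refine (Finset.sum_le_sum fun T hT => ?_).trans
    (Finset.sum_le_sum_of_subset_of_nonneg (filter_subset _ _) fun T _ _ => ?_)
  · have hTk : T.card ≤ k := (mem_filter.1 hT).2
    have h0 : 0 ≤ (∏ p ∈ T, a p) * ∏ p ∈ P \ T, b p :=
      mul_nonneg (prod_nonneg fun p _ => ha p) (prod_nonneg fun p _ => hb p)
    have h1 : 1 ≤ (η⁻¹) ^ k * η ^ T.card := by
      rw [inv_pow, ← div_eq_inv_mul, one_le_div (pow_pos hη k)]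
      exact pow_le_pow_of_le_one hη.le hη1 hTk
    rw [Finset.prod_mul_distrib, Finset.prod_const]
    calc (∏ p ∈ T, a p) * ∏ p ∈ P \ T, b p
        ≤ ((η⁻¹) ^ k * η ^ T.card) * ((∏ p ∈ T, a p) * ∏ p ∈ P \ T, b p) :=
          le_mul_of_one_le_left h0 h1
      _ = _ := by ring
  · have : 0 ≤ ∏ p ∈ T, η * a p := prod_nonneg fun p _ => mul_nonneg hη.le (ha p)
    exact mul_nonneg (pow_nonneg (inv_nonneg.2 hη.le) _)
      (mul_nonneg this (prod_nonneg fun p _ => hb p))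

/-- Few natural numbers lie below a bound. -/
theorem card_le_of_forall_le (s : Finset ℕ) (r : ℝ) (hr : 0 ≤ r)
    (h : ∀ p ∈ s, (p : ℝ) ≤ r) : (s.card : ℝ) ≤ r + 1 := by
  have hs : s ⊆ range (⌊r⌋₊ + 1) := fun p hp =>
    mem_range.2 (Nat.lt_succ_of_le (Nat.le_floor (h p hp)))
  have := Nat.cast_le (α := ℝ).2 (card_le_card hs)
  rw [card_range] at this
  push_cast at this
  linarith [Nat.floor_le hr]

theorem sum_val_mul_log_eq (D : ℕ) (hD : D ≠ 0) :
    ∑ p ∈ D.primeFactors, (padicValNat p D : ℝ) * Real.log p = Real.log D := by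
  conv_rhs => rw [← Nat.prod_factorization_pow_eq_self hD]
  rw [Finsupp.prod, Nat.support_factorization, Nat.cast_prod, Real.log_prod]
  · refine Finset.sum_congr rfl fun p hp => ?_
    rw [Nat.cast_pow, Real.log_pow, Nat.factorization_def _ (Nat.prime_of_mem_primeFactors hp)]
  · intro p hp
    exact_mod_cast pow_ne_zero _ (Nat.prime_of_mem_primeFactors hp).ne_zero

theorem log_det_le {B : Matrix ι ι ℤ} (h : IsSign B) (hd : B.det ≠ 0) :
    Real.log (B.det.natAbs : ℕ) ≤ (Fintype.card ι : ℝ) / 2 * Real.log (Fintype.card ι) := by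
  have hpos : (0 : ℝ) < (B.det.natAbs : ℕ) := by
    exact_mod_cast Nat.pos_of_ne_zero (Int.natAbs_ne_zero.2 hd)
  have hsq : ((B.det.natAbs : ℕ) : ℝ) ^ 2 ≤ (Fintype.card ι : ℝ) ^ Fintype.card ι := by
    rw [Nat.cast_natAbs, Int.cast_abs, sq_abs]
    exact det_sq_le h
  have := Real.log_le_log (pow_pos hpos 2) hsq
  rw [Real.log_pow, Real.log_pow] at this
  push_cast at this
  linarith

theorem one_add_sq_le_exp {A : ℝ} (hA : 1 ≤ A) (V : ℕ) :
    ((V : ℝ) + 1) ^ 2 ≤ A ^ 2 * Real.exp (2 * V / A) := by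
  have hA0 : 0 < A := by linarith
  have h1 : (V : ℝ) + 1 ≤ A * Real.exp (V / A) := by
    have := Real.add_one_le_exp ((V : ℝ) / A)
    calc (V : ℝ) + 1 ≤ V + A := by linarith
      _ = A * (V / A + 1) := by field_simp
      _ ≤ _ := mul_le_mul_of_nonneg_left this hA0.le
  calc ((V : ℝ) + 1) ^ 2 ≤ (A * Real.exp (V / A)) ^ 2 := by gcongr
    _ = _ := by rw [mul_pow, ← Real.exp_nat_mul]; congr 2; push_cast; ring

/-- The lower order terms of the code. -/
noncomputable def codeErr (ε L : ℝ) (m : ℕ) : ℝ :=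
  ((m : ℝ) ^ (2 / 5 : ℝ) + 2) * ((m : ℝ) ^ (0.57 : ℝ) + 8 * Real.log ((m : ℝ) + 1))
    + Real.log 2 * ((m : ℝ) ^ (1 - ε) + 2) + L * m / Real.log m

theorem codeErr_small (ε L : ℝ) (hε : 0 < ε) :
    Tendsto (fun m : ℕ => codeErr ε L m / m) atTop (𝓝 0) := by
  have hrp : ∀ a : ℝ, a < 1 → Tendsto (fun m : ℕ => (m : ℝ) ^ a / m) atTop (𝓝 0) := by
    intro a ha
    have h := (tendsto_rpow_neg_atTop (y := 1 - a) (by linarith)).comp
      tendsto_natCast_atTop_atTop
    refine h.congr' (eventually_atTop.2 ⟨1, fun m hm => ?_⟩)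
    have hm0 : (0 : ℝ) < m := by exact_mod_cast hm
    simp only [Function.comp_apply]
    rw [neg_sub, Real.rpow_sub hm0, Real.rpow_one]
  have hconst : ∀ c : ℝ, Tendsto (fun m : ℕ => c / (m : ℝ)) atTop (𝓝 0) := fun c =>
    tendsto_const_nhds.div_atTop tendsto_natCast_atTop_atTop
  have hlog : Tendsto (fun m : ℕ => L / Real.log m) atTop (𝓝 0) :=
    tendsto_const_nhds.div_atTop (Real.tendsto_log_atTop.comp tendsto_natCast_atTop_atTop)
  set U : ℕ → ℝ := fun m => ((m : ℝ) ^ (0.97 : ℝ) / m + 2 * ((m : ℝ) ^ (0.57 : ℝ) / m))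
    + 96 * ((m : ℝ) ^ (0.9 : ℝ) / m) + Real.log 2 * ((m : ℝ) ^ (1 - ε) / m)
    + (Real.log 2 * 2) / m + |L / Real.log m|
  have hU : Tendsto U atTop (𝓝 0) := by
    simpa using ((((((hrp 0.97 (by norm_num)).add ((hrp 0.57 (by norm_num)).const_mul 2)).add
      ((hrp 0.9 (by norm_num)).const_mul 96)).add
      ((hrp (1 - ε) (by linarith)).const_mul (Real.log 2))).add (hconst (Real.log 2 * 2))).add
      hlog.abs)
  refine squeeze_zero_norm' (eventually_atTop.2 ⟨2, fun m hm => ?_⟩) hU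
  have hm1 : (1 : ℝ) ≤ m := by exact_mod_cast (show 1 ≤ m by omega)
  have hm0 : (0 : ℝ) < m := by linarith
  have hl0 : 0 ≤ Real.log ((m : ℝ) + 1) := Real.log_nonneg (by linarith)
  have hle : Real.log ((m : ℝ) + 1) ≤ 4 * (m : ℝ) ^ (1 / 2 : ℝ) := by
    refine (Real.log_le_rpow_div (by linarith) (show (0 : ℝ) < 1 / 2 by norm_num)).trans ?_
    rw [div_le_iff₀ (by norm_num)]
    calc ((m : ℝ) + 1) ^ (1 / 2 : ℝ) ≤ (4 * (m : ℝ)) ^ (1 / 2 : ℝ) :=
          Real.rpow_le_rpow (by linarith) (by linarith) (by norm_num)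
      _ = (4 : ℝ) ^ (1 / 2 : ℝ) * (m : ℝ) ^ (1 / 2 : ℝ) := Real.mul_rpow (by norm_num) hm0.le
      _ = _ := by
          rw [← Real.sqrt_eq_rpow 4, show (4 : ℝ) = 2 * 2 by norm_num,
            Real.sqrt_mul_self (by norm_num)]
          ring
  have e1 : (m : ℝ) ^ (2 / 5 : ℝ) * (m : ℝ) ^ (0.57 : ℝ) = (m : ℝ) ^ (0.97 : ℝ) := by
    rw [← Real.rpow_add hm0]; norm_num
  have e2 : (m : ℝ) ^ (2 / 5 : ℝ) * (m : ℝ) ^ (1 / 2 : ℝ) = (m : ℝ) ^ (0.9 : ℝ) := by
    rw [← Real.rpow_add hm0]; norm_num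
  have e3 : (m : ℝ) ^ (1 / 2 : ℝ) ≤ (m : ℝ) ^ (0.9 : ℝ) :=
    Real.rpow_le_rpow_of_exponent_le hm1 (by norm_num)
  have hL : L * m / Real.log m / m = L / Real.log m := by
    field_simp
  have hbound : (((m : ℝ) ^ (2 / 5 : ℝ) + 2) * ((m : ℝ) ^ (0.57 : ℝ) + 8 * Real.log ((m : ℝ) + 1))) ≤
      (m : ℝ) ^ (0.97 : ℝ) + 2 * (m : ℝ) ^ (0.57 : ℝ) + 96 * (m : ℝ) ^ (0.9 : ℝ) := by
    rw [add_mul, mul_add, e1]
    have h0 : 0 ≤ (m : ℝ) ^ (2 / 5 : ℝ) := by positivity
    have := mul_le_mul_of_nonneg_left hle h0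
    nlinarith
  have hlog2 : 0 ≤ Real.log 2 := Real.log_nonneg (by norm_num)
  rw [Real.norm_eq_abs, codeErr, add_div, add_div, hL]
  refine (abs_add_le _ _).trans (add_le_add ?_ le_rfl)
  rw [abs_of_nonneg (by positivity)]
  calc _ ≤ ((m : ℝ) ^ (0.97 : ℝ) + 2 * (m : ℝ) ^ (0.57 : ℝ) + 96 * (m : ℝ) ^ (0.9 : ℝ)) / m
        + Real.log 2 * ((m : ℝ) ^ (1 - ε) + 2) / m :=
        add_le_add (div_le_div_of_nonneg_right hbound hm0.le) le_rfl
    _ = _ := by field_simp; ring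

/-- The total number of choices. -/
theorem prod_options_le {B : Matrix ι ι ℤ} (h : IsSign B) (hd : B.det ≠ 0)
    (hm : 4 ≤ Fintype.card ι) (ε A η : ℝ) (hA : 1 ≤ A) (hη : 0 < η)
    (hηA : η * A ^ 2 ≤ 1 / A) :
    ∏ p ∈ B.det.natAbs.primeFactors,
        (η * ((padicValNat p B.det.natAbs : ℝ) + 1) ^ 2 + optBound B p) ≤
      Real.exp (((Fintype.card ι : ℝ) ^ (2 / 5 : ℝ) + 2) *
          ((Fintype.card ι : ℝ) ^ (0.57 : ℝ) + 8 * Real.log ((Fintype.card ι : ℝ) + 1))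
        + 15 / (4 * A) * Fintype.card ι
        + Real.log 2 * ((hypPrimes ε B).card + ((Fintype.card ι : ℝ) ^ (1 - ε) + 2))) := by
  set m := Fintype.card ι
  set D := B.det.natAbs
  set P := D.primeFactors
  have hA0 : 0 < A := by linarith
  have hm1 : (4 : ℝ) ≤ m := by exact_mod_cast hm
  have hlm : 0 < Real.log m := Real.log_pos (by linarith)
  have hl2 : 0 ≤ Real.log 2 := Real.log_nonneg (by norm_num)
  have hlm1 : 0 ≤ Real.log ((m : ℝ) + 1) := Real.log_nonneg (by linarith)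
  have hD : D ≠ 0 := Int.natAbs_ne_zero.2 hd
  have hη1 : η ≤ 1 := by
    have h1 : 1 / A ≤ 1 := by rw [div_le_one hA0]; exact hA
    calc η ≤ η * A ^ 2 := le_mul_of_one_le_right hη.le (one_le_pow₀ hA)
      _ ≤ 1 := hηA.trans h1
  have hlog : ∑ p ∈ P, (padicValNat p D : ℝ) * Real.log p ≤ m / 2 * Real.log m := by
    rw [sum_val_mul_log_eq D hD]; exact log_det_le h hd
  have hterm : ∀ p ∈ P, 0 ≤ (padicValNat p D : ℝ) * Real.log p := fun p hp =>
    mul_nonneg (Nat.cast_nonneg _) (Real.log_natCast_nonneg p)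
  set Sm := P.filter fun p => p ^ 5 ≤ m ^ 2
  set Lg := P.filter fun p => ¬p ^ 5 ≤ m ^ 2
  set two : ℕ → ℝ := fun p => if corankMod p B = 2 ∧ p ^ 2 ∣ D then 1 else 0
  set u : ℕ → ℝ := fun p => if p ^ 5 ≤ m ^ 2 then
      (m : ℝ) ^ (0.57 : ℝ) + 8 * Real.log ((m : ℝ) + 1)
    else 3 * (padicValNat p D : ℝ) / A + Real.log 2 * two p
  have hb0 : ∀ p, 0 ≤ optBound B p := fun p => by
    unfold optBound; split_ifs <;> positivity
  have hstep : ∀ p ∈ P, η * ((padicValNat p D : ℝ) + 1) ^ 2 + optBound B p ≤ Real.exp (u p) := by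
    intro p hp
    obtain ⟨hpp, hpD, -⟩ := Nat.mem_primeFactors.1 hp
    have : Fact p.Prime := ⟨hpp⟩
    set V := padicValNat p D
    have hV1 : (1 : ℝ) ≤ V := by exact_mod_cast one_le_padicValNat_of_dvd hD hpD
    by_cases hs : p ^ 5 ≤ m ^ 2
    · simp only [u, optBound, if_pos hs, if_pos (show p ^ 5 ≤ Fintype.card ι ^ 2 from hs)]
      have hVm : (V : ℝ) ≤ (m : ℝ) ^ 2 := by
        have h1 := (single_le_sum hterm hp).trans hlog
        have h2 : Real.log 2 ≤ Real.log p :=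
          Real.log_le_log (by norm_num) (by exact_mod_cast hpp.two_le)
        have h3 : Real.log m ≤ m := (Real.log_le_sub_one_of_pos (by linarith)).trans (by linarith)
        have h4 : (1 / 2 : ℝ) < Real.log 2 := by have := Real.log_two_gt_d9; linarith
        have h5 : (V : ℝ) * (1 / 2) ≤ m / 2 * m :=
          (mul_le_mul_of_nonneg_left (h4.le.trans h2) (Nat.cast_nonneg _)).trans
            (h1.trans (mul_le_mul_of_nonneg_left h3 (by positivity)))
        nlinarith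
      have hM : (1 : ℝ) ≤ (m : ℝ) + 1 := by linarith
      have he : 1 ≤ Real.exp ((m : ℝ) ^ (0.57 : ℝ)) := Real.one_le_exp (by positivity)
      rw [Real.exp_add, show (8 : ℝ) = ((8 : ℕ) : ℝ) by norm_num, Real.exp_nat_mul,
        Real.exp_log (by linarith)]
      have h6 : ((V : ℝ) + 1) ^ 2 ≤ ((m : ℝ) + 1) ^ 4 := by
        calc ((V : ℝ) + 1) ^ 2 ≤ (((m : ℝ) + 1) ^ 2) ^ 2 := by gcongr; nlinarith
          _ = _ := by ring
      have h7 : η * ((V : ℝ) + 1) ^ 2 ≤ ((m : ℝ) + 1) ^ 4 * Real.exp ((m : ℝ) ^ (0.57 : ℝ)) :=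
        ((mul_le_of_le_one_left (by positivity) hη1).trans h6).trans
          (le_mul_of_one_le_right (by positivity) he)
      have h8 : ((m : ℝ) + 2) ≤ ((m : ℝ) + 1) ^ 4 :=
        le_trans (by nlinarith) (pow_le_pow_right₀ hM (show 2 ≤ 4 by norm_num))
      have h9 : ((m : ℝ) + 1) ^ 4 + ((m : ℝ) + 1) ^ 4 ≤ ((m : ℝ) + 1) ^ 8 := by
        have : (2 : ℝ) ≤ ((m : ℝ) + 1) ^ 4 := le_trans (by linarith)
          (le_self_pow₀ hM (by norm_num))
        nlinarith [pow_pos (lt_of_lt_of_le zero_lt_one hM) 4]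
      calc η * ((V : ℝ) + 1) ^ 2 + ((m : ℝ) + 2) * Real.exp ((m : ℝ) ^ (0.57 : ℝ))
          ≤ ((m : ℝ) + 1) ^ 4 * Real.exp ((m : ℝ) ^ (0.57 : ℝ)) +
              ((m : ℝ) + 1) ^ 4 * Real.exp ((m : ℝ) ^ (0.57 : ℝ)) :=
            add_le_add h7 (mul_le_mul_of_nonneg_right h8 (Real.exp_pos _).le)
        _ ≤ _ := by
            rw [← add_mul, mul_comm (Real.exp ((m : ℝ) ^ (0.57 : ℝ)))]
            exact mul_le_mul_of_nonneg_right h9 (Real.exp_pos _).le
    · simp only [u, optBound, if_neg hs, if_neg (show ¬p ^ 5 ≤ Fintype.card ι ^ 2 from hs)]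
      set b : ℝ := if corankMod p B = 2 ∧ p ^ 2 ∣ B.det.natAbs then 2 else 1
      have hb : b = Real.exp (Real.log 2 * two p) := by
        simp only [b, two, D]
        split_ifs <;> simp [Real.exp_log]
      have hb1 : 1 ≤ b := by simp only [b]; split_ifs <;> norm_num
      have hb00 : 0 ≤ b := by linarith
      have hexp : 1 ≤ Real.exp (2 * V / A) := Real.one_le_exp (by positivity)
      calc η * ((V : ℝ) + 1) ^ 2 + b
          ≤ b * ((1 / A) * Real.exp (2 * V / A)) + b * Real.exp (2 * V / A) := by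
            refine add_le_add ?_ (le_mul_of_one_le_right hb00 hexp)
            calc η * ((V : ℝ) + 1) ^ 2 ≤ η * (A ^ 2 * Real.exp (2 * V / A)) :=
                  mul_le_mul_of_nonneg_left (one_add_sq_le_exp hA V) hη.le
              _ = η * A ^ 2 * Real.exp (2 * V / A) := by ring
              _ ≤ 1 / A * Real.exp (2 * V / A) :=
                  mul_le_mul_of_nonneg_right hηA (Real.exp_pos _).le
              _ ≤ _ := le_mul_of_one_le_left (by positivity) hb1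
        _ = b * ((1 / A + 1) * Real.exp (2 * V / A)) := by ring
        _ ≤ b * (Real.exp ((V : ℝ) / A) * Real.exp (2 * V / A)) := by
            gcongr
            exact (Real.add_one_le_exp _).trans (Real.exp_le_exp.2 (by gcongr))
        _ = _ := by rw [hb, ← Real.exp_add, ← Real.exp_add]; congr 1; ring
  refine (Finset.prod_le_prod (fun p _ => by have := hb0 p; positivity) hstep).trans ?_
  rw [← Real.exp_sum]
  refine Real.exp_le_exp.2 ?_
  rw [← Finset.sum_filter_add_sum_filter_not P (fun p => p ^ 5 ≤ m ^ 2)]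
  have h1 : ∑ p ∈ Sm, u p ≤
      ((m : ℝ) ^ (2 / 5 : ℝ) + 2) * ((m : ℝ) ^ (0.57 : ℝ) + 8 * Real.log ((m : ℝ) + 1)) := by
    rw [Finset.sum_congr rfl fun p hp => show u p = _ from if_pos (mem_filter.1 hp).2,
      sum_const, nsmul_eq_mul]
    refine mul_le_mul_of_nonneg_right ?_ (by positivity)
    refine (card_le_of_forall_le Sm ((m : ℝ) ^ (2 / 5 : ℝ)) (by positivity) fun p hp => ?_).trans
      (by linarith)
    have h5 : ((p : ℝ)) ^ 5 ≤ (m : ℝ) ^ 2 := by exact_mod_cast (mem_filter.1 hp).2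
    have := Real.rpow_le_rpow (by positivity) h5 (show (0 : ℝ) ≤ 1 / 5 by norm_num)
    rw [← Real.rpow_natCast (p : ℝ), ← Real.rpow_natCast (m : ℝ), ← Real.rpow_mul (Nat.cast_nonneg _),
      ← Real.rpow_mul (Nat.cast_nonneg _)] at this
    norm_num at this
    exact this
  have hV : ∑ p ∈ Lg, (padicValNat p D : ℝ) ≤ 5 / 4 * m := by
    have hle : ∑ p ∈ Lg, (padicValNat p D : ℝ) * (2 / 5 * Real.log m) ≤ m / 2 * Real.log m := by
      refine le_trans (Finset.sum_le_sum fun p hp => mul_le_mul_of_nonneg_left ?_ (Nat.cast_nonneg _))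
        ((Finset.sum_le_sum_of_subset_of_nonneg (filter_subset _ _)
          fun p hp _ => hterm p hp).trans hlog)
      have h5 : (m : ℝ) ^ 2 ≤ (p : ℝ) ^ 5 := by
        exact_mod_cast (not_le.1 (mem_filter.1 hp).2).le
      have := Real.log_le_log (by positivity) h5
      rw [Real.log_pow, Real.log_pow] at this
      push_cast at this
      linarith
    rw [← Finset.sum_mul, ← le_div_iff₀ (by positivity)] at hle
    refine hle.trans (le_of_eq ?_)
    field_simp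
    ring
  have htwo : ∑ p ∈ Lg, two p ≤ (hypPrimes ε B).card + ((m : ℝ) ^ (1 - ε) + 2) := by
    simp only [two]
    rw [Finset.sum_boole]
    set W := Lg.filter fun p => corankMod p B = 2 ∧ p ^ 2 ∣ D
    have hsub : W ⊆ hypPrimes ε B ∪ W.filter fun p : ℕ => (p : ℝ) ≤ (m : ℝ) ^ (1 - ε) := by
      intro p hp
      simp only [W, Lg, P, mem_filter] at hp
      by_cases hle : (p : ℝ) ≤ (m : ℝ) ^ (1 - ε)
      · exact mem_union_right _ (mem_filter.2 ⟨by simp only [W, Lg, P, mem_filter]; exact hp, hle⟩)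
      · exact mem_union_left _ (mem_filter.2 ⟨hp.1.1, not_le.1 hle, hp.2.1, hp.2.2⟩)
    have h2 := (card_le_card hsub).trans (card_union_le _ _)
    have h3 := card_le_of_forall_le (W.filter fun p : ℕ => (p : ℝ) ≤ (m : ℝ) ^ (1 - ε))
      ((m : ℝ) ^ (1 - ε)) (by positivity) fun p hp => (mem_filter.1 hp).2
    have h4 : (W.card : ℝ) ≤
        (hypPrimes ε B).card + ((W.filter fun p : ℕ => (p : ℝ) ≤ (m : ℝ) ^ (1 - ε)).card : ℝ) := by
      exact_mod_cast h2
    linarith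
  have h2 : ∑ p ∈ Lg, u p ≤ 15 / (4 * A) * m +
      Real.log 2 * ((hypPrimes ε B).card + ((m : ℝ) ^ (1 - ε) + 2)) := by
    rw [Finset.sum_congr rfl fun p hp => show u p = _ from if_neg (mem_filter.1 hp).2,
      sum_add_distrib, ← Finset.sum_div, ← Finset.mul_sum, ← Finset.mul_sum]
    refine add_le_add ?_ (mul_le_mul_of_nonneg_left htwo hl2)
    rw [div_le_iff₀ hA0]
    calc 3 * ∑ p ∈ Lg, (padicValNat p D : ℝ) ≤ 3 * (5 / 4 * m) :=
          mul_le_mul_of_nonneg_left hV (by norm_num)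
      _ = _ := by field_simp; ring
  linarith

end Vale.Agent.P160R
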