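import Vale.Agent.P160R.Code.Subgroups
import Vale.Agent.P160R.Local
import Vale.Agent.P160R.Column

/-!
# The local options of the code at one prime
-/

namespace Vale.Agent.P160R

open Finset Matrix
open scoped Classical

variable {ι : Type} [Fintype ι] [DecidableEq ι] {p : ℕ}

omit [DecidableEq ι] in
/-- The all-odd matrix has corank different from two modulo two. -/
theorem corankMod_two_ne {B : Matrix ι ι ℤ} (h : IsSign B) (hm : 4 ≤ Fintype.card ι) :
    corankMod 2 B ≠ 2 := by
  rw [corankMod, dif_pos Nat.prime_two]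
  have hmap : B.map (Int.cast : ℤ → ZMod 2) = vecMulVec (fun _ => (1 : ZMod 2)) (fun _ => 1) := by
    ext i j
    rcases h.2 i j with e | e <;> simp [vecMulVec_apply, e]
  have : Fact (Nat.Prime 2) := ⟨Nat.prime_two⟩
  have hr := rank_vecMulVec_le (fun _ : ι => (1 : ZMod 2)) (fun _ : ι => (1 : ZMod 2))
  rw [← hmap] at hr
  omega

theorem mem_nP_of_exp_zero {B : Matrix ι ι ℤ} {hp : p.Prime} {x : ι → ℤ}
    (h : ∀ l, pExp p (qVec B x l) ≤ 0) : x ∈ nP B hp :=
  fun l => (pExp_eq_zero_iff hp _).1 (Nat.le_zero.1 (h l))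

theorem mem_eP_of_mem_kP_one {B : Matrix ι ι ℤ} (hB : B.IsSymm) (hd : B.det ≠ 0) {hp : p.Prime}
    {f : ℕ} {y x : ι → ℤ} (hy : IsCand B p 0 f y) (h : PInt p (qForm B y x)) :
    x ∈ eP B hp y := by
  obtain ⟨hyy, hv, -, hf, -⟩ := hy
  obtain ⟨hne, hle⟩ := relIndex_eP_kP_le hB hd hp (γ := 0) (M := 1) one_ne_zero hyy
    (by simpa using hv) hf
  have h1 : (eP B hp y).relIndex (kP B hp 1 y) = 1 := le_antisymm (by simpa using hle)
    (Nat.one_le_iff_ne_zero.2 hne)
  exact AddSubgroup.relIndex_eq_one.1 h1 (by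
    show PInt p _
    simpa using h)

/-- The options for columns with a trivial cofactor or a trivial order at `p`. -/
theorem exists_exact_options {B : Matrix ι ι ℤ} (h : IsSign B) (hd : B.det ≠ 0)
    (hm : 4 ≤ Fintype.card ι) (hp : p.Prime) :
    ∃ O : Finset (AddSubgroup (ι → ℤ)),
      O.card ≤ (if corankMod p B = 2 ∧ p ^ 2 ∣ B.det.natAbs then 2 else 1) ∧
      (∀ K ∈ O, IsoAt B p K) ∧
      ∀ x : ι → Bool, (qForm B (signVec x) (signVec x)).den = 1 →
        padicValNat p (clsCof B (signVec x)) = 0 ∨ padicValNat p (clsOrd B (signVec x)) = 0 →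
        ∃ K ∈ O, signVec x ∈ K := by
  have : Fact p.Prime := ⟨hp⟩
  have hB := h.1
  set V := padicValNat p B.det.natAbs
  let C := (univ : Finset (ι → Bool)).filter fun x =>
    (qForm B (signVec x) (signVec x)).den = 1 ∧ padicValNat p (clsCof B (signVec x)) = 0 ∧
      padicValNat p (clsOrd B (signVec x)) ≠ 0
  have hzero : ∀ x : ι → Bool, (qForm B (signVec x) (signVec x)).den = 1 →
      padicValNat p (clsOrd B (signVec x)) = 0 → signVec x ∈ nP B hp := fun x hx h0 => by
    obtain ⟨-, hc⟩ := column_isCand B hB hd _ hx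
    exact mem_nP_of_exp_zero fun l => h0 ▸ (hc p hp).2.2.1 l
  have hcand : ∀ x ∈ C, IsCand B p 0 (V / 2) (signVec x) ∧ 2 ≤ V := by
    intro x hx
    simp only [C, mem_filter, mem_univ, true_and] at hx
    obtain ⟨hx1, hx2, hx3⟩ := hx
    have hc := (column_isCand B hB hd _ hx1).2 p hp
    have hV : V = 0 + 2 * padicValNat p (clsOrd B (signVec x)) := by
      simpa [hx2, V] using hc.2.1
    refine ⟨?_, by omega⟩
    rw [hx2] at hc
    rwa [show V / 2 = padicValNat p (clsOrd B (signVec x)) by omega]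
  have hiso : ∀ x ∈ C, IsoAt B p (eP B hp (signVec x)) := fun x hx =>
    isoAt_eP hB (hcand x hx).1.1
  by_cases hC : C = ∅
  · refine ⟨{nP B hp}, ?_, fun K hK => by rw [mem_singleton.1 hK]; exact isoAt_nP B hp,
      fun x hx hx' => ⟨_, mem_singleton_self _, hzero x hx ?_⟩⟩
    · rw [card_singleton]; split_ifs <;> omega
    · by_contra h0
      have : x ∈ C := by
        simp only [C, mem_filter, mem_univ, true_and]
        exact ⟨hx, hx'.resolve_right h0, h0⟩
      simp [hC] at this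
  obtain ⟨x₁, h₁⟩ := Finset.nonempty_of_ne_empty hC
  have hp2V : p ^ 2 ∣ B.det.natAbs := (pow_dvd_pow p (hcand x₁ h₁).2).trans pow_padicValNat_dvd
  by_cases hc2 : corankMod p B = 2
  swap
  · refine ⟨{eP B hp (signVec x₁)}, by simp [hc2], fun K hK => by
      rw [mem_singleton.1 hK]; exact hiso x₁ h₁, fun x hx hx' => ⟨_, mem_singleton_self _, ?_⟩⟩
    by_cases h0 : padicValNat p (clsOrd B (signVec x)) = 0
    · exact nP_le_eP _ _ _ (hzero x hx h0)
    have hxC : x ∈ C := by
      simp only [C, mem_filter, mem_univ, true_and]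
      exact ⟨hx, hx'.resolve_right h0, h0⟩
    exact mem_eP_of_mem_kP_one hB hd (hcand x₁ h₁).1
      (one_class hB hd hp (hcand x₁ h₁).1 (hcand x hxC).1 hc2)
  have hp2 : p ≠ 2 := fun e => corankMod_two_ne h hm (by subst e; exact hc2)
  obtain ⟨v, hv⟩ := two_classes hB hd hp hp2 (hcand x₁ h₁).1
  let key : (ι → Bool) → ℕ := fun x => pExp p (qForm B (signVec x₁) (signVec x))
  let rep : ℕ → (ι → Bool) := fun k => if hk : ∃ x ∈ C, key x = k then hk.choose else x₁
  have hrep : ∀ k, rep k ∈ C := fun k => by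
    simp only [rep]; split_ifs with hk
    · exact hk.choose_spec.1
    · exact h₁
  refine ⟨({0, v} : Finset ℕ).image fun k => eP B hp (signVec (rep k)), ?_, ?_, ?_⟩
  · simp only [hc2, hp2V, and_self, if_true]
    exact card_image_le.trans card_le_two
  · intro K hK
    obtain ⟨k, -, rfl⟩ := mem_image.1 hK
    exact hiso _ (hrep k)
  intro x hx hx'
  by_cases h0 : padicValNat p (clsOrd B (signVec x)) = 0
  · exact ⟨_, mem_image_of_mem _ (mem_insert_self _ _), nP_le_eP _ _ _ (hzero x hx h0)⟩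
  have hxC : x ∈ C := by
    simp only [C, mem_filter, mem_univ, true_and]
    exact ⟨hx, hx'.resolve_right h0, h0⟩
  have hex : ∃ z ∈ C, key z = key x := ⟨x, hxC, rfl⟩
  have hkey : key (rep (key x)) = key x := by
    simp only [rep, dif_pos hex]; exact hex.choose_spec.2
  have hkmem : key x ∈ ({0, v} : Finset ℕ) := by
    rcases hv _ (hcand x hxC).1 with e | e <;> simp [key, e]
  refine ⟨_, mem_image_of_mem _ hkmem, mem_eP_of_mem_kP_one hB hd (hcand _ (hrep _)).1 ?_⟩
  have hs := same_class_pairing hB hd hp (hcand x₁ h₁).1 (hcand _ (hrep (key x))).1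
    (hcand x hxC).1 hkey
  have hhalf : PInt p (1 / 2 : ℚ) := by
    norm_num [PInt]
    exact fun hh => hp2 ((Nat.prime_dvd_prime_iff_eq hp Nat.prime_two).1 hh)
  convert hhalf.mul hp hs using 1
  simp

/-- The bound on the options at a prime that is not special. -/
noncomputable def optBound (B : Matrix ι ι ℤ) (p : ℕ) : ℝ :=
  if p ^ 5 ≤ Fintype.card ι ^ 2 then
    ((Fintype.card ι : ℝ) + 2) * Real.exp ((Fintype.card ι : ℝ) ^ (0.57 : ℝ))
  else if corankMod p B = 2 ∧ p ^ 2 ∣ B.det.natAbs then 2 else 1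

/-- The options at a prime that is not special. -/
theorem exists_plain_options {B : Matrix ι ι ℤ} (h : IsSign B) (hd : B.det ≠ 0)
    (hm : 4 ≤ Fintype.card ι) (hF : FewSmallClasses B) (hp : p.Prime) :
    ∃ O : Finset (AddSubgroup (ι → ℤ)), (O.card : ℝ) ≤ optBound B p ∧ (∀ K ∈ O, IsoAt B p K) ∧
      ∀ x : ι → Bool, (qForm B (signVec x) (signVec x)).den = 1 →
        p ∉ specialPrimes B (signVec x) → ∃ K ∈ O, signVec x ∈ K := by
  have : Fact p.Prime := ⟨hp⟩
  have hB := h.1
  set m := Fintype.card ι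
  obtain ⟨O₀, hc₀, hi₀, hx₀⟩ := exists_exact_options h hd hm hp
  have hnotspec : ∀ x : ι → Bool, (qForm B (signVec x) (signVec x)).den = 1 →
      p ∉ specialPrimes B (signVec x) → deepMod p m ∣ clsOrd B (signVec x) →
      padicValNat p (clsCof B (signVec x)) = 0 := by
    intro x _ hns hdeep
    by_contra hne
    refine hns ?_
    rw [specialPrimes, mem_filter, Nat.mem_primeFactors]
    exact ⟨⟨hp, dvd_of_one_le_padicValNat (by omega), fun h0 => hne (by rw [h0]; simp)⟩, hdeep⟩
  have hordne : ∀ x : ι → ℤ, clsOrd B x ≠ 0 := fun x => by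
    simp [clsOrd, Finset.lcm_eq_zero_iff]
  by_cases hsm : p ^ 5 ≤ m ^ 2
  swap
  · refine ⟨O₀, ?_, hi₀, fun x hx hns => hx₀ x hx ?_⟩
    · rw [optBound, if_neg hsm]
      split_ifs with hc
      · rw [if_pos hc] at hc₀; exact_mod_cast hc₀
      · rw [if_neg hc] at hc₀; exact_mod_cast hc₀
    by_cases h0 : padicValNat p (clsOrd B (signVec x)) = 0
    · exact Or.inr h0
    refine Or.inl (hnotspec x hx hns ?_)
    rw [deepMod, if_neg hsm]
    exact dvd_of_one_le_padicValNat (by omega)
  choose F hFc hFx using fun i : Fin (Nat.clog p m) => hF p i hp hsm i.2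
  set O₁ := (univ : Finset (Fin (Nat.clog p m))).biUnion fun i =>
    ((F i).filter fun y => PInt p (qForm B y y)).image fun y => eP B hp y
  refine ⟨O₀ ∪ O₁, ?_, ?_, ?_⟩
  · rw [optBound, if_pos hsm]
    have h2 : O₀.card ≤ 2 := hc₀.trans (by split_ifs <;> omega)
    have hclog : Nat.clog p m ≤ m :=
      Nat.clog_le_of_le_pow (Nat.lt_pow_self hp.one_lt).le
    have h1 : (O₁.card : ℝ) ≤ m * Real.exp ((m : ℝ) ^ (0.57 : ℝ)) := by
      refine (Nat.cast_le.2 card_biUnion_le).trans ?_
      push_cast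
      refine (Finset.sum_le_sum fun i _ =>
        (Nat.cast_le.2 (card_image_le.trans (card_filter_le _ _))).trans (hFc i)).trans ?_
      rw [sum_const, card_univ, Fintype.card_fin, nsmul_eq_mul]
      exact mul_le_mul_of_nonneg_right (by exact_mod_cast hclog) (Real.exp_pos _).le
    have he : 1 ≤ Real.exp ((m : ℝ) ^ (0.57 : ℝ)) := Real.one_le_exp (by positivity)
    calc ((O₀ ∪ O₁).card : ℝ) ≤ (O₀.card : ℝ) + O₁.card := by exact_mod_cast card_union_le _ _
      _ ≤ 2 * Real.exp ((m : ℝ) ^ (0.57 : ℝ)) + m * Real.exp ((m : ℝ) ^ (0.57 : ℝ)) := by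
          refine add_le_add ((Nat.cast_le.2 h2).trans ?_) h1
          push_cast; linarith
      _ = _ := by ring
  · intro K hK
    rcases mem_union.1 hK with hK | hK
    · exact hi₀ K hK
    obtain ⟨i, -, hK⟩ := mem_biUnion.1 hK
    obtain ⟨y, hy, rfl⟩ := mem_image.1 hK
    exact isoAt_eP hB (mem_filter.1 hy).2
  intro x hx hns
  obtain ⟨-, hc⟩ := column_isCand B hB hd _ hx
  set i := padicValNat p (clsOrd B (signVec x)) with hi
  by_cases hic : i < Nat.clog p m
  swap
  · have hdeep : deepMod p m ∣ clsOrd B (signVec x) := by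
      rw [deepMod, if_pos hsm]
      exact (padicValNat_dvd_iff_le (hordne _)).2 (not_lt.1 hic)
    obtain ⟨K, hK, hxK⟩ := hx₀ x hx (Or.inl (hnotspec x hx hns hdeep))
    exact ⟨K, mem_union_left _ hK, hxK⟩
  obtain ⟨y, hy, hxy⟩ := hFx ⟨i, hic⟩ x (hc p hp).2.2.1
  have hu : signVec x - y ∈ nP B hp := hxy
  have hyy : PInt p (qForm B y y) := by
    have e1 : qForm B (signVec x) (signVec x) =
        qForm B (signVec x) y + qForm B (signVec x) (signVec x - y) := by
      rw [← qForm_add_right, add_sub_cancel]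
    have e2 : qForm B y (signVec x) = qForm B y y + qForm B y (signVec x - y) := by
      rw [← qForm_add_right, add_sub_cancel]
    rw [show qForm B y y = qForm B (signVec x) (signVec x) - qForm B (signVec x) (signVec x - y)
        - qForm B y (signVec x - y) by rw [qForm_symm hB y] at e2; linarith]
    exact (((hc p hp).1).sub hp (pInt_qForm_right hp _ hu)).sub hp (pInt_qForm_right hp _ hu)
  refine ⟨eP B hp y, mem_union_right _ (mem_biUnion.2 ⟨⟨i, hic⟩, mem_univ _,
    mem_image_of_mem _ (mem_filter.2 ⟨hy, hyy⟩)⟩), mem_eP.2 ⟨_, hu, 1, by simp⟩⟩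

/-- The options at a special prime. -/
theorem exists_special_options {B : Matrix ι ι ℤ} (h : IsSign B) (hd : B.det ≠ 0) (hp : p.Prime) :
    ∃ O : Finset (AddSubgroup (ι → ℤ)), O.card ≤ (padicValNat p B.det.natAbs + 1) ^ 2 ∧
      ∀ x : ι → Bool, (qForm B (signVec x) (signVec x)).den = 1 →
        ∃ K ∈ O, signVec x ∈ K ∧ ∃ E : AddSubgroup (ι → ℤ), IsoAt B p E ∧ E.relIndex K ≠ 0 ∧
          E.relIndex K ≤ 2 * p ^ (3 * padicValNat p (clsCof B (signVec x))) := by
  have hB := h.1
  set V := padicValNat p B.det.natAbs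
  let C : ℕ → Finset (ι → Bool) := fun γ => univ.filter fun x =>
    (qForm B (signVec x) (signVec x)).den = 1 ∧ padicValNat p (clsCof B (signVec x)) = γ
  let first : ℕ → (ι → Bool) := fun γ => if hγ : (C γ).Nonempty then hγ.choose else fun _ => true
  let key : ℕ → (ι → Bool) → ℕ := fun γ x => pExp p (qForm B (signVec (first γ)) (signVec x))
  let rep : ℕ → ℕ → (ι → Bool) := fun γ k =>
    if hk : ∃ x ∈ C γ, key γ x = k then hk.choose else fun _ => true
  refine ⟨(range (V + 1) ×ˢ range (V + 1)).image fun gk =>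
    kP B hp (2 * p ^ (2 * gk.1)) (signVec (rep gk.1 gk.2)), ?_, ?_⟩
  · refine card_image_le.trans ?_
    rw [card_product, card_range, sq]
  intro x hx
  obtain ⟨-, hc⟩ := column_isCand B hB hd _ hx
  set γ := padicValNat p (clsCof B (signVec x)) with hγ
  set f := padicValNat p (clsOrd B (signVec x))
  have hcx : IsCand B p γ f (signVec x) := hc p hp
  have hxC : x ∈ C γ := by simp [C, hx, hγ]
  have hcand : ∀ z ∈ C γ, IsCand B p γ f (signVec z) := by
    intro z hz
    simp only [C, mem_filter, mem_univ, true_and] at hz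
    have hz2 := (column_isCand B hB hd _ hz.1).2 p hp
    rw [hz.2] at hz2
    have e1 := hz2.2.1
    have e2 := hcx.2.1
    rwa [show f = padicValNat p (clsOrd B (signVec z)) by omega]
  have hfirst : first γ ∈ C γ := by
    have hne : (C γ).Nonempty := ⟨x, hxC⟩
    simp only [first, dif_pos hne]; exact hne.choose_spec
  have hex : ∃ z ∈ C γ, key γ z = key γ x := ⟨x, hxC, rfl⟩
  have hrep : rep γ (key γ x) ∈ C γ ∧ key γ (rep γ (key γ x)) = key γ x := by
    simp only [rep, dif_pos hex]; exact hex.choose_spec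
  have hγV : γ ∈ range (V + 1) := by
    have := hcx.2.1
    exact mem_range.2 (by omega)
  have hkV : key γ x ∈ range (V + 1) := mem_range.2 (Nat.lt_succ_of_le (pExp_qForm_le_det hd hp _ _))
  set y := signVec (rep γ (key γ x))
  have hy := hcand _ hrep.1
  refine ⟨kP B hp (2 * p ^ (2 * γ)) y,
    mem_image.2 ⟨(γ, key γ x), mem_product.2 ⟨hγV, hkV⟩, rfl⟩, ?_, eP B hp y, isoAt_eP hB hy.1, ?_⟩
  · show PInt p _
    push_cast
    exact same_class_pairing hB hd hp (hcand _ hfirst) hy hcx hrep.2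
  obtain ⟨h1, h2⟩ := relIndex_eP_kP_le hB hd hp (M := 2 * p ^ (2 * γ))
    (mul_ne_zero two_ne_zero (pow_ne_zero _ hp.ne_zero)) hy.1 hy.2.1 hy.2.2.2.1
  refine ⟨h1, h2.trans (le_of_eq ?_)⟩
  rw [mul_assoc, ← pow_add]
  congr 2
  ring

end Vale.Agent.P160R
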