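import Vale.Agent.P160R.Local.Arith

/-!
# Rationals integral at a prime; linearity of the discriminant pairing
-/

namespace Vale.Agent.P160R

open Finset Matrix

theorem pInt_of_den_dvd {p : ℕ} {a : ℚ} {d : ℕ} (hd : a.den ∣ d) (h : ¬ p ∣ d) : PInt p a :=
  fun hp => h (hp.trans hd)

theorem PInt.intMul {p : ℕ} (hp : p.Prime) (z : ℤ) {a : ℚ} (ha : PInt p a) :
    PInt p ((z : ℚ) * a) :=
  (pInt_intCast hp z).mul hp ha

/-- Multiples that clear the denominator at `p` are divisible by its `p`-part. -/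
theorem dvd_of_pInt_mul {p : ℕ} (hp : p.Prime) {a : ℚ} {n : ℤ} (h : PInt p ((n : ℚ) * a)) :
    ((p ^ pExp p a : ℕ) : ℤ) ∣ n := by
  push_cast
  exact pow_dvd_of_pInt hp rfl h

variable {ι : Type} [Fintype ι] [DecidableEq ι]

theorem qVec_zero (B : Matrix ι ι ℤ) : qVec B 0 = 0 := by
  simpa using qVec_smul (B := B) 0 0

theorem qVec_neg (B : Matrix ι ι ℤ) (x : ι → ℤ) : qVec B (-x) = -qVec B x := by
  simpa using qVec_smul (B := B) (-1) x

theorem qVec_sub (B : Matrix ι ι ℤ) (x y : ι → ℤ) : qVec B (x - y) = qVec B x - qVec B y := by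
  rw [sub_eq_add_neg, qVec_add, qVec_neg, sub_eq_add_neg]

theorem qForm_neg_right (B : Matrix ι ι ℤ) (x y : ι → ℤ) : qForm B x (-y) = -qForm B x y := by
  simp [qForm, qVec_neg]

theorem qForm_zero_right (B : Matrix ι ι ℤ) (x : ι → ℤ) : qForm B x 0 = 0 := by
  simp [qForm, qVec_zero]

theorem pInt_qForm_right {p : ℕ} (hp : p.Prime) {B : Matrix ι ι ℤ} (x : ι → ℤ) {u : ι → ℤ}
    (hu : ∀ l, PInt p (qVec B u l)) : PInt p (qForm B x u) :=
  pInt_sum hp _ _ fun l _ => (hu l).intMul hp (x l)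

theorem det_mul_qVec {B : Matrix ι ι ℤ} (hd : B.det ≠ 0) (x : ι → ℤ) (l : ι) :
    (B.det : ℚ) * qVec B x l = ((B.adjugate.mulVec x l : ℤ) : ℚ) := by
  have hdQ : (B.det : ℚ) ≠ 0 := by exact_mod_cast hd
  have hdet : (B.map (Int.cast : ℤ → ℚ)).det = (B.det : ℚ) :=
    (RingHom.map_det (Int.castRingHom ℚ) B).symm
  have hadj : (B.map (Int.cast : ℤ → ℚ)).adjugate = B.adjugate.map (Int.cast : ℤ → ℚ) :=
    (RingHom.map_adjugate (Int.castRingHom ℚ) B).symm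
  simp [qVec, qInv, Matrix.inv_def, hdet, hadj, mulVec, dotProduct, Finset.mul_sum, ← mul_assoc,
    mul_inv_cancel₀ hdQ]

theorem den_dvd_of_det_mul {B : Matrix ι ι ℤ} (hd : B.det ≠ 0) {q : ℚ} {z : ℤ}
    (h : (B.det : ℚ) * q = (z : ℚ)) : q.den ∣ B.det.natAbs := by
  have hdQ : (B.det : ℚ) ≠ 0 := by exact_mod_cast hd
  have e : q = Rat.divInt z B.det := by
    rw [Rat.divInt_eq_div, eq_div_iff hdQ, ← h, mul_comm]
  have h2 := Rat.den_dvd z B.det
  rw [← e] at h2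
  simpa using Int.natAbs_dvd_natAbs.2 h2

theorem qVec_den_dvd {B : Matrix ι ι ℤ} (hd : B.det ≠ 0) (x : ι → ℤ) (l : ι) :
    (qVec B x l).den ∣ B.det.natAbs :=
  den_dvd_of_det_mul hd (det_mul_qVec hd x l)

theorem qForm_den_dvd {B : Matrix ι ι ℤ} (hd : B.det ≠ 0) (x y : ι → ℤ) :
    (qForm B x y).den ∣ B.det.natAbs := by
  refine den_dvd_of_det_mul hd (z := x ⬝ᵥ B.adjugate.mulVec y) ?_
  simp only [qForm, dotProduct, Finset.mul_sum, Int.cast_sum, Int.cast_mul, ← det_mul_qVec hd]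
  exact Finset.sum_congr rfl fun l _ => by ring

theorem pExp_qForm_le_det {B : Matrix ι ι ℤ} (hd : B.det ≠ 0) {p : ℕ} (hp : p.Prime)
    (x y : ι → ℤ) : pExp p (qForm B x y) ≤ padicValNat p B.det.natAbs := by
  have : Fact p.Prime := ⟨hp⟩
  exact (padicValNat_dvd_iff_le (Int.natAbs_ne_zero.2 hd)).1
    (pow_padicValNat_dvd.trans (qForm_den_dvd hd x y))

end Vale.Agent.P160R
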