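import Vale.Agent.P160R.Code.PInt

/-!
# Local subgroups of a column, their indices, and the weight of their intersection
-/

namespace Vale.Agent.P160R

open Finset Matrix Module

variable {ι : Type} [Fintype ι] [DecidableEq ι] {p : ℕ}

/-- The lattice of vectors whose class is trivial at `p`. -/
def nP (B : Matrix ι ι ℤ) (hp : p.Prime) : AddSubgroup (ι → ℤ) where
  carrier := {g | ∀ l, PInt p (qVec B g l)}
  add_mem' := fun {a b} ha hb l => by
    rw [qVec_add, Pi.add_apply]; exact (ha l).add hp (hb l)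
  zero_mem' := fun l => by rw [qVec_zero]; exact pInt_zero hp
  neg_mem' := fun {a} ha l => by rw [qVec_neg, Pi.neg_apply]; exact (ha l).neg

/-- The classes generated at `p` by the class of `y`. -/
def eP (B : Matrix ι ι ℤ) (hp : p.Prime) (y : ι → ℤ) : AddSubgroup (ι → ℤ) :=
  nP B hp ⊔ AddSubgroup.zmultiples y

/-- The vectors pairing integrally at `p` with `M • y`. -/
def kP (B : Matrix ι ι ℤ) (hp : p.Prime) (M : ℕ) (y : ι → ℤ) : AddSubgroup (ι → ℤ) where
  carrier := {g | PInt p ((M : ℚ) * qForm B y g)}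
  add_mem' := fun {a b} ha hb => by
    show PInt p _
    rw [qForm_add_right, mul_add]; exact ha.add hp hb
  zero_mem' := by
    show PInt p _
    rw [qForm_zero_right, mul_zero]; exact pInt_zero hp
  neg_mem' := fun {a} ha => by
    show PInt p _
    rw [qForm_neg_right, mul_neg]; exact ha.neg

/-- All pairings inside are integral at `p`. -/
def IsoAt (B : Matrix ι ι ℤ) (p : ℕ) (E : AddSubgroup (ι → ℤ)) : Prop :=
  ∀ g ∈ E, ∀ g' ∈ E, PInt p (qForm B g g')

theorem mem_eP {B : Matrix ι ι ℤ} {hp : p.Prime} {y g : ι → ℤ} :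
    g ∈ eP B hp y ↔ ∃ u ∈ nP B hp, ∃ α : ℤ, u + α • y = g := by
  simp only [eP, AddSubgroup.mem_sup, AddSubgroup.mem_zmultiples_iff]
  constructor
  · rintro ⟨u, hu, w, ⟨α, rfl⟩, rfl⟩; exact ⟨u, hu, α, rfl⟩
  · rintro ⟨u, hu, α, rfl⟩; exact ⟨u, hu, _, ⟨α, rfl⟩, rfl⟩

theorem nP_le_eP (B : Matrix ι ι ℤ) (hp : p.Prime) (y : ι → ℤ) : nP B hp ≤ eP B hp y := le_sup_left

theorem self_mem_eP (B : Matrix ι ι ℤ) (hp : p.Prime) (y : ι → ℤ) : y ∈ eP B hp y :=
  AddSubgroup.mem_sup_right (AddSubgroup.mem_zmultiples y)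

theorem isoAt_eP {B : Matrix ι ι ℤ} (hB : B.IsSymm) {hp : p.Prime} {y : ι → ℤ}
    (hy : PInt p (qForm B y y)) : IsoAt B p (eP B hp y) := by
  intro g hg g' hg'
  obtain ⟨u, hu, α, rfl⟩ := mem_eP.1 hg
  obtain ⟨u', hu', α', rfl⟩ := mem_eP.1 hg'
  rw [qForm_add_right, qForm_smul_right, qForm_symm hB _ y, qForm_add_right, qForm_smul_right]
  exact (pInt_qForm_right hp _ hu').add hp
    (((pInt_qForm_right hp y hu).add hp (hy.intMul hp α)).intMul hp α')

theorem isoAt_nP (B : Matrix ι ι ℤ) (hp : p.Prime) : IsoAt B p (nP B hp) :=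
  fun g _ _ hg' => pInt_qForm_right hp g hg'

theorem eP_le_kP {B : Matrix ι ι ℤ} {hp : p.Prime} {y : ι → ℤ} (hy : PInt p (qForm B y y))
    (M : ℕ) : eP B hp y ≤ kP B hp M y := by
  intro g hg
  obtain ⟨u, hu, α, rfl⟩ := mem_eP.1 hg
  show PInt p _
  rw [qForm_add_right, qForm_smul_right]
  simpa using ((pInt_qForm_right hp y hu).add hp (hy.intMul hp α)).intMul hp (M : ℤ)

theorem index_range_mulVec {B : Matrix ι ι ℤ} (hd : B.det ≠ 0) :
    (LinearMap.range B.mulVecLin).toAddSubgroup.index = B.det.natAbs := by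
  have hinj : Function.Injective B.mulVecLin := by
    intro u v h
    have h' : qVec B (B.mulVec u) = qVec B (B.mulVec v) := congrArg (qVec B) h
    funext i
    have hi := congrFun h' i
    rw [qVec_mulVec hd, qVec_mulVec hd] at hi
    exact_mod_cast hi
  let bN : Basis ι ℤ (LinearMap.range B.mulVecLin) :=
    (Pi.basisFun ℤ ι).map (LinearEquiv.ofInjective B.mulVecLin hinj)
  show Nat.card ((ι → ℤ) ⧸ LinearMap.range B.mulVecLin) = _
  rw [← Submodule.natAbs_det_basis_change (Pi.basisFun ℤ ι) _ bN, Basis.det_apply]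
  congr 2
  ext i j
  simp [bN, Basis.toMatrix_apply]

theorem index_nP_dvd {B : Matrix ι ι ℤ} (hd : B.det ≠ 0) (hp : p.Prime) :
    (nP B hp).index ∣ B.det.natAbs := by
  rw [← index_range_mulVec hd]
  refine AddSubgroup.index_dvd_of_le fun g hg => ?_
  obtain ⟨u, rfl⟩ := hg
  intro l
  rw [show B.mulVecLin u = B.mulVec u from rfl, qVec_mulVec hd]
  exact pInt_intCast hp _

theorem index_nP_ne_zero {B : Matrix ι ι ℤ} (hd : B.det ≠ 0) (hp : p.Prime) :
    (nP B hp).index ≠ 0 :=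
  ne_zero_of_dvd_ne_zero (Int.natAbs_ne_zero.2 hd) (index_nP_dvd hd hp)

theorem index_nP_le {B : Matrix ι ι ℤ} (hd : B.det ≠ 0) (hp : p.Prime) :
    (nP B hp).index ≤ p ^ padicValNat p B.det.natAbs := by
  have : Fact p.Prime := ⟨hp⟩
  have hD : B.det.natAbs ≠ 0 := Int.natAbs_ne_zero.2 hd
  set V := padicValNat p B.det.natAbs
  obtain ⟨D', hD'⟩ : p ^ V ∣ B.det.natAbs := pow_padicValNat_dvd
  have hkill : ∀ g : ι → ℤ, ((p ^ V : ℕ) : ℤ) • g ∈ nP B hp := fun g l => by
    rw [qVec_smul]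
    have hpD' : ¬ p ∣ D' := fun h => by
      have : p ^ (V + 1) ∣ B.det.natAbs := by
        rw [hD', pow_succ]; exact mul_dvd_mul_left _ h
      exact Nat.not_succ_le_self V ((padicValNat_dvd_iff_le hD).1 this)
    have hD'0 : D' ≠ 0 := by rintro rfl; exact hpD' (dvd_zero p)
    have hdet : (B.det : ℚ) = (B.det.sign : ℚ) * ((p : ℚ) ^ V * D') := by
      have : B.det = B.det.sign * ((p ^ V * D' : ℕ) : ℤ) := by
        rw [← hD', Int.sign_mul_natAbs]
      calc (B.det : ℚ) = ((B.det.sign * ((p ^ V * D' : ℕ) : ℤ) : ℤ) : ℚ) := by rw [← this]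
        _ = _ := by push_cast; ring
    have hsgn : (B.det.sign : ℚ) * B.det.sign = 1 := by
      rcases lt_trichotomy B.det 0 with h | h | h
      · simp [Int.sign_eq_neg_one_of_neg h]
      · exact absurd h hd
      · simp [Int.sign_eq_one_of_pos h]
    set w : ℚ := (((p ^ V : ℕ) : ℤ) : ℚ) * qVec B g l
    have hw : ((D' : ℤ) : ℚ) * w = ((B.det.sign * B.adjugate.mulVec g l : ℤ) : ℚ) := by
      rw [Int.cast_mul, ← det_mul_qVec hd g l, hdet]
      simp only [w]
      push_cast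
      linear_combination (-((p : ℚ) ^ V * D' * qVec B g l)) * hsgn
    have hden : w.den ∣ D' := by
      have e : w = Rat.divInt (B.det.sign * B.adjugate.mulVec g l) (D' : ℤ) := by
        rw [Rat.divInt_eq_div, eq_div_iff (by exact_mod_cast hD'0), ← hw, mul_comm]
      have h2 := Rat.den_dvd (B.det.sign * B.adjugate.mulVec g l) (D' : ℤ)
      rw [← e] at h2
      exact Int.natCast_dvd_natCast.1 h2
    exact pInt_of_den_dvd hden hpD'
  have hind := index_nP_ne_zero hd hp
  have hfac : ∀ {r : ℕ}, r.Prime → r ∣ (nP B hp).index → r = p := by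
    intro r hr hdvd
    have : Fact r.Prime := ⟨hr⟩
    have : Finite ((ι → ℤ) ⧸ nP B hp) := Nat.finite_of_card_ne_zero hind
    obtain ⟨x, hx⟩ := exists_prime_addOrderOf_dvd_card' (G := (ι → ℤ) ⧸ nP B hp) r hdvd
    induction x using QuotientAddGroup.induction_on with
    | H g =>
      have h0 : (p ^ V) • (g : (ι → ℤ) ⧸ nP B hp) = 0 := by
        rw [← QuotientAddGroup.mk_nsmul, QuotientAddGroup.eq_zero_iff, ← natCast_zsmul]
        exact hkill g
      exact (Nat.prime_dvd_prime_iff_eq hr hp).1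
        (hr.dvd_of_dvd_pow (hx ▸ addOrderOf_dvd_of_nsmul_eq_zero h0))
  obtain ⟨k, hk⟩ : ∃ k, (nP B hp).index = p ^ k :=
    ⟨_, Nat.eq_prime_pow_of_unique_prime_dvd hind hfac⟩
  rw [hk]
  refine Nat.pow_le_pow_right hp.pos ((padicValNat_dvd_iff_le hD).1 ?_)
  rw [← hk]; exact index_nP_dvd hd hp

/-- The index of the classes generated by a column among those pairing with it. -/
theorem relIndex_eP_kP_le {B : Matrix ι ι ℤ} (hB : B.IsSymm) (hd : B.det ≠ 0) (hp : p.Prime)
    {γ f M : ℕ} (hM : M ≠ 0) {y : ι → ℤ} (hy : PInt p (qForm B y y))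
    (hv : padicValNat p B.det.natAbs = γ + 2 * f)
    (hf : f = 0 ∨ ∃ l, pExp p (qVec B y l) = f) :
    (eP B hp y).relIndex (kP B hp M y) ≠ 0 ∧
      (eP B hp y).relIndex (kP B hp M y) ≤ M * p ^ γ := by
  have hne := index_nP_ne_zero hd hp
  have h1 := AddSubgroup.relIndex_mul_index (eP_le_kP (hp := hp) hy M)
  have h2 := AddSubgroup.relIndex_mul_index (nP_le_eP B hp y)
  have hE : (eP B hp y).index ≠ 0 := by intro h; rw [h, mul_zero] at h2; exact hne h2.symm
  have hR : (eP B hp y).relIndex (kP B hp M y) ≠ 0 := by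
    intro h; rw [h, zero_mul] at h1; exact hE h1.symm
  have hK : (kP B hp M y).index ≠ 0 := by intro h; rw [h, mul_zero] at h1; exact hE h1.symm
  have hR2 : (nP B hp).relIndex (eP B hp y) ≠ 0 := by
    intro h; rw [h, zero_mul] at h2; exact hne h2.symm
  refine ⟨hR, ?_⟩
  have hKge : p ^ f ≤ M * (kP B hp M y).index := by
    rcases hf with rfl | ⟨i, hi⟩
    · simpa [Nat.one_le_iff_ne_zero] using And.intro hM hK
    set n := (kP B hp M y).index
    have hmem : PInt p ((M : ℚ) * qForm B y (n • Pi.single i 1)) :=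
      (kP B hp M y).nsmul_index_mem (Pi.single i 1)
    have e : qForm B y (Pi.single i 1) = qVec B y i := by
      rw [qForm_symm hB, qForm, show (fun j => ((Pi.single i 1 : ι → ℤ) j : ℚ)) = Pi.single i 1 from
        funext fun j => by by_cases h : j = i <;> simp [h], single_one_dotProduct]
    rw [← natCast_zsmul, qForm_smul_right, e, ← mul_assoc] at hmem
    have hdvd := dvd_of_pInt_mul hp (n := ((M * n : ℕ) : ℤ)) (a := qVec B y i) (by
      convert hmem using 1
      push_cast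
      ring)
    rw [hi, Int.natCast_dvd_natCast] at hdvd
    exact Nat.le_of_dvd (Nat.pos_of_ne_zero (mul_ne_zero hM hK)) hdvd
  have hR2ge : p ^ f ≤ (nP B hp).relIndex (eP B hp y) := by
    rcases hf with rfl | ⟨i, hi⟩
    · simpa [Nat.one_le_iff_ne_zero] using hR2
    set n := (nP B hp).relIndex (eP B hp y)
    have hmem : n • y ∈ nP B hp :=
      ((nP B hp).addSubgroupOf (eP B hp y)).nsmul_index_mem ⟨y, self_mem_eP B hp y⟩
    have h := hmem i
    rw [← natCast_zsmul, qVec_smul, Pi.smul_apply, smul_eq_mul] at h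
    have hdvd := dvd_of_pInt_mul hp h
    rw [hi, Int.natCast_dvd_natCast] at hdvd
    exact Nat.le_of_dvd (Nat.pos_of_ne_zero hR2) hdvd
  have hidx := index_nP_le hd hp
  rw [hv, ← h2, ← h1] at hidx
  have hpf : 0 < p ^ f := pow_pos hp.pos f
  refine Nat.le_of_mul_le_mul_right ?_ (Nat.mul_pos hpf hpf)
  calc (eP B hp y).relIndex (kP B hp M y) * (p ^ f * p ^ f)
      ≤ (eP B hp y).relIndex (kP B hp M y) *
          ((M * (kP B hp M y).index) * (nP B hp).relIndex (eP B hp y)) :=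
        Nat.mul_le_mul_left _ (Nat.mul_le_mul hKge hR2ge)
    _ = M * ((nP B hp).relIndex (eP B hp y) *
          ((eP B hp y).relIndex (kP B hp M y) * (kP B hp M y).index)) := by ring
    _ ≤ M * p ^ (γ + 2 * f) := Nat.mul_le_mul_left _ hidx
    _ = M * p ^ γ * (p ^ f * p ^ f) := by ring

theorem den_eq_one_of_iso {B : Matrix ι ι ℤ} (hd : B.det ≠ 0)
    {E : AddSubgroup (ι → ℤ)} {g g' : ι → ℤ} (hg : g ∈ E) (hg' : g' ∈ E)
    (h : ∀ p ∈ B.det.natAbs.primeFactors, IsoAt B p E) : (qForm B g g').den = 1 := by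
  refine Nat.eq_one_iff_not_exists_prime_dvd.2 fun q hq hdvd => ?_
  exact h q (Nat.mem_primeFactors.2 ⟨hq, hdvd.trans (qForm_den_dvd hd g g'),
    Int.natAbs_ne_zero.2 hd⟩) g hg g' hg' hdvd

/-- The weight of an intersection of local subgroups. -/
theorem latW_of_local {B : Matrix ι ι ℤ} (hd : B.det ≠ 0) (L : AddSubgroup (ι → ℤ)) (n : ℕ → ℕ)
    (w : ℝ) (hw : 2 * ∑ p ∈ B.det.natAbs.primeFactors, Real.log (n p) ≤ w)
    (h : ∀ p ∈ B.det.natAbs.primeFactors, ∃ K E : AddSubgroup (ι → ℤ),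
      L ≤ K ∧ IsoAt B p E ∧ E.relIndex K ≠ 0 ∧ E.relIndex K ≤ n p) :
    LatW B w L := by
  intro r Z hZ hdet
  set P := B.det.natAbs.primeFactors
  choose K E hLK hE hne hle using fun p : P => h p.1 p.2
  set L' : AddSubgroup (ι → ℤ) := ⨅ p : P, E p
  have hzero : ∀ p : P, (E p).relIndex L ≠ 0 := fun p h0 =>
    hne p (AddSubgroup.relIndex_eq_zero_of_le_right (hLK p) h0)
  have hL'0 : L'.relIndex L ≠ 0 := AddSubgroup.relIndex_iInf_ne_zero hzero
  let φ : (Fin r → ℤ) →+ (ι → ℤ) := Z.mulVecLin.toAddMonoidHom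
  have hrange : φ.range ≤ L := by
    rintro _ ⟨a, rfl⟩
    have e : φ a = ∑ k, a k • fun i => Z i k := by
      funext i
      simp [φ, mulVec, dotProduct, mul_comm]
    rw [e]
    exact AddSubgroup.sum_mem _ fun k _ => AddSubgroup.zsmul_mem _ (hZ k) _
  set Λ := L'.comap φ
  have hidx : Λ.index = L'.relIndex φ.range := AddSubgroup.index_comap _ _
  have hidx0 : Λ.index ≠ 0 := by
    rw [hidx]; exact fun h0 => hL'0 (AddSubgroup.relIndex_eq_zero_of_le_right hrange h0)
  have hle' : Λ.index ≤ ∏ p ∈ P, n p := by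
    rw [hidx]
    refine (AddSubgroup.relIndex_le_of_le_right hrange hL'0).trans
      ((AddSubgroup.relIndex_iInf_le E).trans ?_)
    rw [← Finset.prod_coe_sort P n]
    exact Finset.prod_le_prod' fun p _ =>
      (AddSubgroup.relIndex_le_of_le_right (hLK p) (hne p)).trans (hle p)
  set N := Λ.toIntSubmodule
  have hfin : Finite ((Fin r → ℤ) ⧸ N) := Nat.finite_of_card_ne_zero hidx0
  have hrank : Module.finrank ℤ N = r := by
    rw [(Submodule.finiteQuotient_iff N).1 hfin, Module.finrank_fin_fun]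
  let bN : Basis (Fin r) ℤ N := Module.finBasisOfFinrankEq ℤ N hrank
  let T : Matrix (Fin r) (Fin r) ℤ := Matrix.of fun i k => (bN k : Fin r → ℤ) i
  have hT : T.det.natAbs = Λ.index := by
    rw [AddSubgroup.index_eq_natAbs_det (Pi.basisFun ℤ (Fin r)) Λ bN, Basis.det_apply]
    congr 2
  set H := (Z.map (Int.cast : ℤ → ℚ))ᵀ * qInv B * Z.map (Int.cast : ℤ → ℚ)
  set Tq := T.map (Int.cast : ℤ → ℚ)
  have hent : ∀ k l, (Tqᵀ * H * Tq) k l = qForm B (φ (bN k)) (φ (bN l)) := by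
    intro k l
    have e : (Z.map (Int.cast : ℤ → ℚ)) * Tq = (Z * T).map (Int.cast : ℤ → ℚ) :=
      (Matrix.map_mul (f := Int.castRingHom ℚ)).symm
    have e2 : Tqᵀ * H * Tq = ((Z * T).map (Int.cast : ℤ → ℚ))ᵀ * qInv B *
        (Z * T).map (Int.cast : ℤ → ℚ) := by
      rw [← e, transpose_mul]; simp only [H, Matrix.mul_assoc]
    rw [e2, mul_apply]
    simp only [qForm, qVec, dotProduct, mulVec, mul_apply, transpose_apply, map_apply,
      Finset.sum_mul, Finset.mul_sum]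
    rw [Finset.sum_comm]
    exact Finset.sum_congr rfl fun i _ => Finset.sum_congr rfl fun j _ => by
      simp [φ, T, mulVec, dotProduct, mul_assoc]
  have hint : ∀ k l, (((Tqᵀ * H * Tq) k l).num : ℚ) = (Tqᵀ * H * Tq) k l := by
    intro k l
    refine Rat.coe_int_num_of_den_eq_one ?_
    rw [hent]
    refine den_eq_one_of_iso hd (E := L') (bN k).2 (bN l).2 fun p hp g hg g' hg' => ?_
    exact hE ⟨p, hp⟩ g ((iInf_le E ⟨p, hp⟩ : L' ≤ _) hg) g' ((iInf_le E ⟨p, hp⟩ : L' ≤ _) hg')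
  set Num : Matrix (Fin r) (Fin r) ℤ := Matrix.of fun k l => ((Tqᵀ * H * Tq) k l).num
  have hprod : (Num.det : ℚ) = (T.det : ℚ) ^ 2 * H.det := by
    have e : Num.map (Int.cast : ℤ → ℚ) = Tqᵀ * H * Tq := by
      ext k l; exact hint k l
    have e1 : (Num.map (Int.cast : ℤ → ℚ)).det = (Num.det : ℚ) :=
      (RingHom.map_det (Int.castRingHom ℚ) Num).symm
    have e2 : Tq.det = (T.det : ℚ) := (RingHom.map_det (Int.castRingHom ℚ) T).symm
    rw [← e1, e, det_mul, det_mul, det_transpose, e2]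
    ring
  have hTne : (T.det : ℚ) ≠ 0 := by
    have : T.det.natAbs ≠ 0 := hT ▸ hidx0
    exact_mod_cast Int.natAbs_ne_zero.1 this
  have hone : (1 : ℚ) ≤ |(Num.det : ℚ)| := by
    have hN : Num.det ≠ 0 := by
      intro h0
      rw [h0, Int.cast_zero] at hprod
      exact hdet ((mul_eq_zero.1 hprod.symm).resolve_left (pow_ne_zero _ hTne))
    exact_mod_cast Int.one_le_abs hN
  have hidx1 : (1 : ℝ) ≤ Λ.index := by exact_mod_cast Nat.one_le_iff_ne_zero.2 hidx0
  have hlog : 2 * Real.log (Λ.index) ≤ w := by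
    refine le_trans ?_ hw
    gcongr
    calc Real.log (Λ.index) ≤ Real.log ((∏ p ∈ P, n p : ℕ) : ℝ) :=
          Real.log_le_log (by linarith) (by exact_mod_cast hle')
      _ = _ := by
          rw [Nat.cast_prod, Real.log_prod]
          intro p hp
          obtain ⟨K', E', -, -, h1, h2⟩ := h p hp
          exact_mod_cast Nat.ne_of_gt ((Nat.pos_of_ne_zero h1).trans_le h2)
  have habs : (1 : ℝ) ≤ (Λ.index : ℝ) ^ 2 * |((H.det : ℚ) : ℝ)| := by
    have h1 : (1 : ℚ) ≤ (T.det.natAbs : ℚ) ^ 2 * |H.det| := by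
      rw [Nat.cast_natAbs, Int.cast_abs]
      calc (1 : ℚ) ≤ |(Num.det : ℚ)| := hone
        _ = _ := by rw [hprod, abs_mul, abs_pow]
    rw [hT] at h1
    exact_mod_cast h1
  calc Real.exp (-w) ≤ Real.exp (-(2 * Real.log (Λ.index))) := Real.exp_le_exp.2 (by linarith)
    _ = ((Λ.index : ℝ) ^ 2)⁻¹ := by
        rw [Real.exp_neg, two_mul, Real.exp_add, Real.exp_log (by linarith), sq]
    _ ≤ _ := by
        rw [inv_le_iff_one_le_mul₀ (by positivity), mul_comm]
        exact habs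

end Vale.Agent.P160R
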